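import Crest.Agent.X212.Crt72.Plan
import Crest.Agent.X212.Crt72.Three
import Crest.Agent.X212.Lin97.Emb
import Crest.Agent.X212.Cgr76.Y
import Crest.Agent.X212.Lin97.Main
import Crest.Agent.X212.Mp86.Res

-- ▼ part X212/Ms1/Ms
section

/-!
# Row 212, CRIT (helper1): masses at finitely many points (`MsStmt`)
-/

set_option autoImplicit false
set_option linter.unusedSectionVars false
noncomputable section
open Set Filter Topology Function Module
open scoped InnerProductSpace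

namespace Crest.Agent.X212.Ms1
open Crt72

section one
variable {X₁ X₀ : Type*} [NormedAddCommGroup X₁] [NormedSpace ℝ X₁] [CompleteSpace X₁]
  [NormedAddCommGroup X₀] [InnerProductSpace ℝ X₀] [CompleteSpace X₀]
  {i L : X₁ →L[ℝ] X₀} {sf : (X₀ →L[ℝ] X₀) → (X₀ →L[ℝ] X₀) → ℤ}
  {J₁ : X₁ →L[ℝ] X₁} {J a : X₀ →L[ℝ] X₀}

theorem rk_sym (J : X₀ →L[ℝ] X₀) (ψ : X₀) : rk J ψ ∈ symA X₀ := fun x y => by
  simp only [rk_apply, inner_add_left, inner_add_right, real_inner_smul_left,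
    real_inner_smul_right, real_inner_comm x]
  ring

theorem rk_inner (J : X₀ →L[ℝ] X₀) (ψ x : X₀) :
    ⟪rk J ψ x, x⟫_ℝ = ⟪ψ, x⟫_ℝ * ⟪ψ, x⟫_ℝ + ⟪J ψ, x⟫_ℝ * ⟪J ψ, x⟫_ℝ := by
  rw [rk_apply, inner_add_left, real_inner_smul_left, real_inner_smul_left]

/-- the rank one step, `J` complex only on `ψ` -/
theorem step (H : SF i L (symA X₀) sf) (iJ : ∀ u, i (J₁ u) = J (i u))
    (skew : ∀ x y, ⟪J x, y⟫_ℝ = -⟪x, J y⟫_ℝ) (ha : a ∈ symA X₀)
    (hT : ∀ u, Op i L a (J₁ u) = J (Op i L a u)) (hb : Bijective (Op i L a)) {ψ : X₀} {φ : X₁}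
    (hψ : J (J ψ) = -ψ) (hTφ : Op i L a φ = ψ) {σ : ℝ} (hσ : σ = 1 ∨ σ = -1)
    (hm : σ * ⟪ψ, i φ⟫_ℝ < 0) : ∃ t : ℝ, Bijective (Op i L (a + t • rk J ψ)) ∧
      sf a (a + t • rk J ψ) = if σ = 1 then 2 else -2 := by
  set m := σ * ⟪ψ, i φ⟫_ℝ with hmd
  have hTJ : Op i L a (J₁ φ) = J ψ := by rw [hT, hTφ]
  have o1 : ⟪J ψ, i φ⟫_ℝ = 0 := by
    have := H.symOp ha (J₁ φ) φ
    rw [hTJ, hTφ, iJ, skew (i φ)] at this
    linarith [real_inner_comm (J ψ) (i φ)]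
  have o2 : ⟪ψ, J (i φ)⟫_ℝ = 0 := by linarith [skew ψ (i φ)]
  have o3 : ⟪J ψ, J (i φ)⟫_ℝ = ⟪ψ, i φ⟫_ℝ := by
    have := skew (J ψ) (i φ)
    rw [hψ, inner_neg_left] at this
    linarith
  have hker : ∀ (t : ℝ) u, Op i L (a + (σ * t) • rk J ψ) u = 0 ↔
      u = -(σ * t * ⟪ψ, i u⟫_ℝ) • φ + -(σ * t * ⟪J ψ, i u⟫_ℝ) • J₁ φ := fun t u => by
    rw [← hb.1.eq_iff, Op_add, add_apply, map_add, map_smul, map_smul, hTφ, hTJ,
      ContinuousLinearMap.comp_apply, smul_apply, rk_apply, add_eq_zero_iff_eq_neg]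
    constructor <;> intro h <;> rw [h] <;> module
  have hev : ∀ x y : ℝ, σ * ⟪ψ, i (x • φ + y • J₁ φ)⟫_ℝ = x * m ∧
      σ * ⟪J ψ, i (x • φ + y • J₁ φ)⟫_ℝ = y * m := fun x y => by
    simp only [map_add, map_smul, inner_add_right, real_inner_smul_right, iJ, o1, o2, o3, hmd]
    constructor <;> ring
  have hτ : 0 < -m⁻¹ := neg_pos.2 (inv_lt_zero.2 hm)
  have hσ2 : σ * σ = 1 := by rcases hσ with rfl | rfl <;> norm_num
  have hinv : ∀ t ∈ Ico 0 (-m⁻¹), Bijective (Op i L (a + (σ * t) • rk J ψ)) := fun t ht =>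
    H.bij_of_inj fun u hu => by
      have e := (hker t u).1 hu
      have e2 := hev (-(σ * t * ⟪ψ, i u⟫_ℝ)) (-(σ * t * ⟪J ψ, i u⟫_ℝ))
      rw [← e] at e2
      have hpos : 0 < 1 + t * m := by
        have := mul_lt_mul_of_neg_right ht.2 hm
        rw [neg_mul, inv_mul_cancel₀ hm.ne] at this
        linarith
      have a1 : σ * ⟪ψ, i u⟫_ℝ = 0 := (mul_eq_zero.1 (show σ * ⟪ψ, i u⟫_ℝ * (1 + t * m) = 0 by
        linear_combination e2.1)).resolve_right hpos.ne'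
      have a2 : σ * ⟪J ψ, i u⟫_ℝ = 0 := (mul_eq_zero.1 (show σ * ⟪J ψ, i u⟫_ℝ * (1 + t * m) = 0 by
        linear_combination e2.2)).resolve_right hpos.ne'
      rw [e, mul_right_comm, a1, mul_right_comm σ t, a2]; simp
  have hK : Submodule.span ℝ {φ, J₁ φ} = (Op i L (a + (σ * -m⁻¹) • rk J ψ)).ker := by
    ext u
    rw [Submodule.mem_span_pair, LinearMap.mem_ker, ContinuousLinearMap.coe_coe, hker]
    refine ⟨?_, fun h => ⟨_, _, h.symm⟩⟩
    rintro ⟨x, y, rfl⟩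
    rw [mul_right_comm, (hev x y).1, mul_right_comm σ, (hev x y).2]
    congr 2 <;> field_simp [hm.ne]
  have hbp : ∀ k ∈ Submodule.span ℝ {φ, J₁ φ}, k ≠ 0 → 0 < ⟪rk J ψ (i k), i k⟫_ℝ := fun k hk h0 => by
    obtain ⟨x, y, rfl⟩ := Submodule.mem_span_pair.1 hk
    rw [rk_inner]
    obtain ⟨e1, e2⟩ := hev x y
    have e3 : ∀ p : ℝ, p * p = (σ * p) * (σ * p) := fun p => by linear_combination -(p * p) * hσ2
    rw [e3 ⟪ψ, _⟫_ℝ, e3 ⟪J ψ, _⟫_ℝ, e1, e2]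
    have : x ≠ 0 ∨ y ≠ 0 := by
      by_contra h
      push Not at h
      exact h0 (by rw [h.1, h.2]; simp)
    rcases this with h | h
    · nlinarith [mul_self_pos.2 (mul_ne_zero h hm.ne), mul_self_nonneg (y * m)]
    · nlinarith [mul_self_pos.2 (mul_ne_zero h hm.ne), mul_self_nonneg (x * m)]
  have hr : finrank ℝ (Submodule.span ℝ {φ, J₁ φ}) = 2 := by
    have hl : LinearIndependent ℝ ![φ, J₁ φ] := by
      rw [LinearIndependent.pair_iff]
      intro s t hst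
      have := hev s t
      simp only [hst, map_zero, inner_zero_right, mul_zero, zero_eq_mul, hm.ne, or_false] at this
      exact this
    have := finrank_span_eq_card hl
    rwa [Matrix.range_cons_cons_empty, Fintype.card_fin] at this
  have hr' := rk_sym J ψ
  rcases hσ with rfl | rfl
  · obtain ⟨ε, -, b1, f1⟩ := H.step ha hr' hr' hτ (Or.inl rfl) hinv (hK ▸ hbp)
      (K₂ := ⊥) ((sup_bot_eq _).trans hK) (by simp) hbp (by simp)
    refine ⟨1 * -m⁻¹ + ε, ?_⟩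
    rw [add_smul, ← add_assoc]
    exact ⟨b1, by simpa [hr] using f1⟩
  · obtain ⟨ε, -, b1, f1⟩ := H.step ha hr' ((symA X₀).neg_mem hr') hτ (Or.inr rfl) hinv
      (hK ▸ hbp) (K₁ := ⊥) ((bot_sup_eq _).trans hK) (by simp) (by simp)
      (fun k hk h0 => by simpa only [neg_apply, inner_neg_left, neg_lt_zero] using hbp k hk h0)
    refine ⟨-1 * -m⁻¹ + -ε, ?_⟩
    rw [add_smul, ← add_assoc, neg_smul, ← smul_neg]
    refine ⟨b1, ?_⟩
    rw [if_neg (by norm_num)] at f1 ⊢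
    rw [f1, hr]; rfl

/-- the sign of the inverse on `ψ` -/
theorem sign (H : SF i L (symA X₀) sf) (ha : a ∈ symA X₀) (hb : Bijective (Op i L a)) :
    ∃ R : ℝ, ∀ (ψ : X₀) (v : X₁) (ε : ℝ), ε = 1 ∨ ε = -1 →
      R * (‖L v - ψ‖ ^ 2 + ‖i v‖ ^ 2) < ε * ⟪i v, ψ⟫_ℝ →
      ∃ φ, Op i L a φ = ψ ∧ -ε * ⟪ψ, i φ⟫_ℝ < 0 := by
  obtain ⟨S, h1, h2⟩ := exists_inv hb
  set c := 1 + ‖a‖ ^ 2
  set d := ‖i ∘L S‖
  refine ⟨c + 1 + 2 * d * c, fun ψ v ε hε h => ⟨S ψ, h1 ψ, ?_⟩⟩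
  set r := L v - ψ + a (i v) with hr
  have e1 : ψ = Op i L a v - r := by rw [hr, Op_apply]; abel
  have e2 : S ψ = v - S r := by rw [e1, map_sub, h2]
  have e3 : ⟪ψ, i (S r)⟫_ℝ = ⟪i v, r⟫_ℝ - ⟪r, i (S r)⟫_ℝ := by
    conv_lhs => rw [e1, inner_sub_left, H.symOp ha, h1]
  have n1 : ‖r‖ ≤ ‖L v - ψ‖ + ‖a‖ * ‖i v‖ := (norm_add_le _ _).trans (by
    gcongr; exact a.le_opNorm _)
  have n2 : ‖r‖ ^ 2 ≤ 2 * c * (‖L v - ψ‖ ^ 2 + ‖i v‖ ^ 2) := by
    have := pow_le_pow_left₀ (norm_nonneg _) n1 2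
    have h3 : 0 ≤ ‖a‖ ^ 2 * ‖L v - ψ‖ ^ 2 := by positivity
    nlinarith [sq_nonneg (‖L v - ψ‖ - ‖a‖ * ‖i v‖), sq_nonneg ‖i v‖]
  have n3 : |⟪i v, r⟫_ℝ| ≤ ‖i v‖ * ‖r‖ := abs_real_inner_le_norm _ _
  have n4 : |⟪r, i (S r)⟫_ℝ| ≤ d * ‖r‖ ^ 2 := (abs_real_inner_le_norm _ _).trans (by
    have : ‖i (S r)‖ ≤ d * ‖r‖ := (i ∘L S).le_opNorm r
    nlinarith [mul_le_mul_of_nonneg_left this (norm_nonneg r)])
  have n5 := mul_le_mul_of_nonneg_left n2 (show 0 ≤ d from norm_nonneg _)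
  rw [e2, map_sub, inner_sub_right, e3, real_inner_comm]
  have := abs_le.1 n3
  have := abs_le.1 n4
  rcases hε with rfl | rfl <;> nlinarith [sq_nonneg (‖i v‖ - ‖r‖), sq_nonneg ‖L v - ψ‖]

/-- no spectral flow near an invertible operator -/
theorem near (H : SF i L (symA X₀) sf) (ha : a ∈ symA X₀) (hb : Bijective (Op i L a)) :
    ∀ᶠ c in 𝓝 a, c ∈ symA X₀ → Bijective (Op i L c) ∧ sf a c = 0 := by
  have h : Continuous (Op i L) := by unfold Op; fun_prop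
  obtain ⟨δ, hδ, hs⟩ := Metric.mem_nhds_iff.1 ((isOpen_bij.preimage h).mem_nhds hb)
  filter_upwards [Metric.ball_mem_nhds a hδ] with c hc hcs
  exact ⟨hs hc, H.hom a ha c hcs fun s hs' =>
    hs ((convex_ball a δ).add_smul_sub_mem (Metric.mem_ball_self hδ) hc hs')⟩

end one

theorem ms : MsStmt := by
  classical
  intro ι _ X₁ X₀ _ _ _ _ _ _ i L sf J₁ J 𝒲 Ψ h a ha
  have cl : ∀ m, ∀ ψ ∈ Ψ m, Pi.single m (rk (J m) ψ) ∈ 𝒲.topologicalClosure := fun m ψ hψ => by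
    refine Metric.mem_closure_iff.2 fun δ hδ => ?_
    obtain ⟨K, hK, k1, k2⟩ := h.app m ψ hψ (δ / 2) (by positivity)
    refine ⟨K, hK, (dist_pi_lt_iff hδ).2 fun n => ?_⟩
    rw [dist_comm, dist_eq_norm]
    by_cases e : n = m
    · subst e; rw [Pi.single_eq_same]; linarith
    · rw [Pi.single_eq_of_ne e, sub_zero]; linarith [k2 n e]
  refine ⟨fun hn => ?_, fun haJ hb n => ?_⟩
  · let U : ∀ m, Set (X₀ m) := fun m =>
      ((Op (i m) (L m) (a m)).ker.map (i m : X₁ m →ₗ[ℝ] X₀ m) : Set (X₀ m)) ∩ Metric.sphere 0 1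
    have hU : ∀ m, IsCompact (U m) := fun m => by
      have := ((h.sf m).frOp (a m)).1.finite_ker
      have := (isCompact_sphere (0 : (Op (i m) (L m) (a m)).ker.map (i m : X₁ m →ₗ[ℝ] X₀ m)) 1).image
        continuous_subtype_val
      convert this using 1
      ext x
      exact ⟨fun ⟨p, q⟩ => ⟨⟨x, p⟩, by simpa using q, rfl⟩, fun ⟨y, p, q⟩ => q ▸ ⟨y.2, by simpa using p⟩⟩
    have hB : ∀ m, ∃ b : X₀ m →L[ℝ] X₀ m, Pi.single m b ∈ 𝒲.topologicalClosure ∧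
        (∀ x, 0 ≤ ⟪b x, x⟫_ℝ) ∧ ∀ x ∈ U m, 0 < ⟪b x, x⟫_ℝ := fun m => by
      refine (hU m).induction_on (p := fun s => ∃ b : X₀ m →L[ℝ] X₀ m,
        Pi.single m b ∈ 𝒲.topologicalClosure ∧ (∀ x, 0 ≤ ⟪b x, x⟫_ℝ) ∧ ∀ x ∈ s, 0 < ⟪b x, x⟫_ℝ)
        ⟨0, by simp, by simp, by simp⟩
        (fun s t hs ht => ht.imp fun b p => ⟨p.1, p.2.1, fun x hx => p.2.2 x (hs hx)⟩)
        (fun s t ⟨b, p, q, r⟩ ⟨b', p', q', r'⟩ => ⟨b + b', by
          rw [Pi.single_add]; exact add_mem p p', fun x => ?_, fun x hx => ?_⟩) ?_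
      · rw [add_apply, inner_add_left]; exact add_nonneg (q x) (q' x)
      · rw [add_apply, inner_add_left]
        exact hx.elim (fun e => add_pos_of_pos_of_nonneg (r x e) (q' x))
          fun e => add_pos_of_nonneg_of_pos (q x) (r' x e)
      · rintro _ ⟨⟨k, hk, rfl⟩, hx⟩
        have q : ∀ ψ x, 0 ≤ ⟪rk (J m) ψ x, x⟫_ℝ := fun ψ x => by
          rw [rk_inner]; exact add_nonneg (mul_self_nonneg _) (mul_self_nonneg _)
        obtain ⟨ψ, hψ, hp⟩ : ∃ ψ ∈ Ψ m, 0 < ⟪rk (J m) ψ (i m k), i m k⟫_ℝ := by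
          by_contra hc
          push Not at hc
          have := hn m k hk fun ψ hψ => by
            have := (hc ψ hψ).antisymm (q _ _)
            rw [rk_inner] at this
            exact mul_self_add_mul_self_eq_zero.1 this
          simp [this] at hx
        exact ⟨_, mem_nhdsWithin_of_mem_nhds ((isOpen_lt continuous_const
          (f := fun _ => (0 : ℝ)) (g := fun x => ⟪rk (J m) ψ x, x⟫_ℝ) (by fun_prop)).mem_nhds hp),
          _, cl m ψ hψ, q ψ, fun x hx => hx⟩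
    choose b b1 _ b2 using hB
    have hb : b ∈ 𝒲.topologicalClosure := by
      rw [← Finset.univ_sum_single b]; exact sum_mem fun m _ => b1 m
    have ev : ∀ᶠ K in 𝓝 b, ∀ m, ∀ x ∈ U m, 0 < ⟪K m x, x⟫_ℝ := eventually_all.2 fun m =>
      (hU m).eventually_forall_of_forall_eventually fun x hx =>
        (isOpen_lt continuous_const (g := fun z : (∀ m, X₀ m →L[ℝ] X₀ m) × X₀ m =>
          ⟪z.1 m z.2, z.2⟫_ℝ) (by fun_prop)).mem_nhds (b2 m x hx)
    obtain ⟨K, k1, k2⟩ := mem_closure_iff_nhds.1 hb _ ev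
    obtain ⟨ε, hε⟩ := (eventually_all.2 fun m => pert (h.sf m).cpt ((h.sf m).frOp (a m))
      ((h.sf m).symOp (ha m)) (c := fun _ => K m) continuous_const fun _ _ k hk hk' => by
        by_contra h0
        have h1 : ‖i m k‖ ≠ 0 := norm_ne_zero_iff.2 fun e =>
          h0 ((h.sf m).inj (e.trans (map_zero _).symm))
        have := k1 m (‖i m k‖⁻¹ • i m k) ⟨Submodule.smul_mem _ _ ⟨k, hk, rfl⟩, by
          simp [norm_smul, h1]⟩
        simp [real_inner_smul_left, real_inner_smul_right, hk' k hk] at this).exists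
    exact ⟨ε • K, 𝒲.smul_mem ε k2, fun m => by
      rw [Op_add]; exact hε m 0 ⟨le_rfl, zero_le_one⟩⟩
  · let P : (ι → ℤ) → Prop := fun n => ∃ K ∈ 𝒲, ∀ m,
      Bijective (Op (i m) (L m) (a m + K m)) ∧ sf m (a m) (a m + K m) = 2 * n m
    have st : ∀ n m (ε : ℝ), ε = 1 ∨ ε = -1 → P n →
        P (n + Pi.single m (if -ε = 1 then 1 else -1)) := by
      rintro n m ε hε ⟨K, hK, k⟩
      have s1 : ∀ l, a l + K l ∈ symA (X₀ l) := fun l => add_mem (ha l) (h.sym K hK l).1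
      obtain ⟨R, hR⟩ := sign (h.sf m) (s1 m) (k m).1
      obtain ⟨ψ, hψ, v, hv⟩ := h.sgn m ε hε R
      obtain ⟨φ, p1, p2⟩ := hR ψ v ε hε hv
      obtain ⟨t, t1, t2⟩ := step (h.sf m) (h.iJ m) (h.skew m) (s1 m) (fun u => by
        simp only [Op_apply, add_apply, h.LJ, h.iJ, haJ, (h.sym K hK m).2, map_add]) (k m).1
        (h.nrm m ψ hψ) p1 (by rcases hε with rfl | rfl <;> simp) p2
      set B : ∀ l, X₀ l →L[ℝ] X₀ l := t • Pi.single m (rk (J m) ψ) with hB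
      have s2 : ∀ l, (a l + K l + B l ∈ symA (X₀ l) ∧ Bijective (Op (i l) (L l) (a l + K l + B l))) ∧
          sf l (a l + K l) (a l + K l + B l) =
            2 * (Pi.single m (if -ε = 1 then 1 else -1) : ι → ℤ) l := fun l => by
        by_cases e : l = m
        · subst e
          simp only [hB, Pi.smul_apply, Pi.single_eq_same]
          exact ⟨⟨add_mem (s1 l) (Submodule.smul_mem _ _ (rk_sym _ _)), t1⟩, by
            rw [t2]; split_ifs <;> rfl⟩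
        · simp only [hB, Pi.smul_apply, Pi.single_eq_of_ne e, smul_zero, add_zero, mul_zero]
          exact ⟨⟨s1 l, (k l).1⟩, (h.sf l).self (s1 l) (k l).1⟩
      have ev := eventually_all.2 fun l => (show ContinuousAt
        (fun K' : ∀ l, X₀ l →L[ℝ] X₀ l => a l + K l + K' l) B from
          (continuous_const.add (continuous_apply l)).continuousAt).eventually
          (near (h.sf l) (s2 l).1.1 (s2 l).1.2)
      obtain ⟨K', k1, k2⟩ := mem_closure_iff_nhds.1 (Submodule.smul_mem _ t (cl m ψ hψ)) _ ev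
      refine ⟨K + K', add_mem hK k2, fun l => ?_⟩
      have s3 := add_mem (s1 l) (h.sym K' k2 l).1
      obtain ⟨q1, q2⟩ := k1 l s3
      rw [Pi.add_apply, ← add_assoc]
      refine ⟨q1, ?_⟩
      rw [← (h.sf l).add _ (ha l) _ (s1 l) _ s3 (hb l) (k l).1 q1,
        ← (h.sf l).add _ (s1 l) _ (s2 l).1.1 _ s3 (k l).1 (s2 l).1.2 q1, (k l).2, (s2 l).2, q2,
        Pi.add_apply]
      ring
    have st2 : ∀ m (k : ℤ) n, P n → P (n + Pi.single m k) := fun m k n hn => by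
      induction k using Int.induction_on with
      | zero => simpa using hn
      | succ k ih => simpa [Pi.single_add, add_assoc] using st _ m (-1) (Or.inr rfl) ih
      | pred k ih =>
        have := st _ m 1 (Or.inl rfl) ih
        rwa [if_neg (by norm_num), add_assoc, ← Pi.single_add, ← sub_eq_add_neg] at this
    have : ∀ s : Finset ι, P (∑ m ∈ s, Pi.single m (n m)) := fun s => by
      induction s using Finset.induction_on with
      | empty => exact ⟨0, zero_mem _, fun m => by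
          simpa using ⟨hb m, (h.sf m).self (ha m) (hb m)⟩⟩
      | insert m s hm ih => rw [Finset.sum_insert hm, add_comm]; exact st2 _ _ _ ih
    simpa only [Finset.univ_sum_single] using this Finset.univ

end Crest.Agent.X212.Ms1
end
end

-- ▼ part X212/Crt72/Main
section

/-!
# Row 212, CRIT (helper72): masses and the main theorem for gradient models
-/

set_option autoImplicit false
set_option linter.unusedSectionVars false
noncomputable section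
open Set Filter Topology Function Module
open scoped ContDiff InnerProductSpace

namespace Crest.Agent.X212.Crt72.GM
variable {Bc Bw B2 : Type} {Q : GM Bc Bw B2}

namespace Ax
variable (H : Q.Ax) {q : Q.Fd} {ι : Type} [Fintype ι] {x : ι → Q.X}
include H

/-- masses in the ideal `N` -/
theorem mass (hq : q ∈ Q.Rl) {ξ : ∀ m, Q.L (x m)} {l : ℝ} (c : ℝ) (S : ∀ m, Q.Spl (x m) (ξ m) l)
    {N : Submodule ℝ Q.Fd} (hN : ∀ r ∈ N, r ∈ Q.Rl) {Ψ : ∀ m, Set (Q.X₀ (x m))}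
    (h1 : ∀ m, ∀ ψ ∈ Ψ m, (c • Q.X0 _ (ξ m)) ((c • Q.X0 _ (ξ m)) ψ) = -ψ)
    (h2 : ∀ m, ∀ ψ ∈ Ψ m, ∀ δ > (0 : ℝ), ∃ r ∈ N, ‖Q.hs r (x m) - rk (c • Q.X0 _ (ξ m)) ψ‖ ≤ δ ∧
      ∀ m', m' ≠ m → ‖Q.hs r (x m')‖ ≤ δ)
    (h3 : ∀ m (ε : ℝ), ε = 1 ∨ ε = -1 → ∀ R, ∃ ψ ∈ Ψ m, Q.Sgn (x m) ψ ε R) :
    ((∀ m z, Q.ext _ (fderiv ℝ (Q.F q (x m)) 0) z = 0 → (∀ ψ ∈ Ψ m, ⟪ψ, Q.i _ (Q.j1 _ z)⟫_ℝ = 0 ∧
      ⟪(c • Q.X0 _ (ξ m)) ψ, Q.i _ (Q.j1 _ z)⟫_ℝ = 0) → z = 0) → ∃ r ∈ N, ∀ m, Q.Bij (q + r) (x m)) ∧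
    ((∀ m, Q.Bij q (x m)) → ∀ n : ι → ℤ, ∃ r ∈ N, ∀ m, Q.Bij (q + r) (x m) ∧
      Q.sf _ (Q.hs q (x m)) (Q.hs (q + r) (x m)) = 2 * n m) := by
  let 𝒲 : Submodule ℝ (∀ m, Q.X₀ (x m) →L[ℝ] Q.X₀ (x m)) :=
    { carrier := {K | ∃ r ∈ N, K = fun m => Q.hs r (x m)}
      add_mem' := by
        rintro _ _ ⟨a, ha, rfl⟩ ⟨b, hb, rfl⟩
        exact ⟨_, add_mem ha hb, funext fun m => (H.hs_add (Rl_le (hN a ha)) (Rl_le (hN b hb)) _).symm⟩
      zero_mem' := ⟨0, zero_mem _, funext fun m => by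
        simpa using (H.hs_smul 0 (zero_mem _) (x m)).symm⟩
      smul_mem' := by
        rintro s _ ⟨a, ha, rfl⟩
        exact ⟨_, N.smul_mem s ha, funext fun m => (H.hs_smul s (Rl_le (hN a ha)) _).symm⟩ }
  obtain ⟨a1, a2⟩ := Ms1.ms ι _ _ (fun m => Q.i (x m)) (fun m => Q.L0 (x m)) (fun m => Q.sf (x m))
    (fun m => c • Q.X1 _ (ξ m)) (fun m => c • Q.X0 _ (ξ m)) 𝒲 Ψ
    { sf := fun m => H.sf _
      iJ := fun m u => by simp [(S m).i]
      LJ := fun m u => by simp [H.L0_X (S m)]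
      skew := fun m a b => by simp [real_inner_smul_left, real_inner_smul_right, (S m).skew]
      sym := by
        rintro _ ⟨r, hr, rfl⟩ m
        exact ⟨H.hs_sym (Rl_le (hN r hr)) _, fun y => by simp [H.hs_X (S m) (hN r hr)]⟩
      nrm := h1
      app := fun m ψ h δ hδ => (h2 m ψ h δ hδ).elim fun r hr => ⟨_, ⟨r, hr.1, rfl⟩, hr.2⟩
      sgn := h3 } (fun m => Q.hs q (x m)) fun m => H.hs_sym (Rl_le hq) _
  refine ⟨fun h => ?_, fun h n => ?_⟩
  · obtain ⟨_, ⟨r, hr, rfl⟩, b⟩ := a1 fun m k hk hψ => by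
      obtain ⟨z, b1, rfl⟩ := H.ker_j1 (Rl_le hq) hk
      rw [h m z b1 hψ, map_zero]
    exact ⟨r, hr, fun m => by rw [Bij, H.hs_add (Rl_le hq) (Rl_le (hN r hr))]; exact b m⟩
  · obtain ⟨_, ⟨r, hr, rfl⟩, b⟩ := a2 (fun m y => by simp [H.hs_X (S m) hq]) h n
    exact ⟨r, hr, fun m => by rw [Bij, H.hs_add (Rl_le hq) (Rl_le (hN r hr))]; exact b m⟩

theorem massI (hq : q ∈ Q.Rl) (e : Q.Cls q (Q.PI · 0) x) (hs : ∀ m, Q.SI (x m)) :
    ((∀ m, Q.On True q nil (x m) 0) → ∃ r ∈ H.Nv Q.PI False, ∀ m, Q.Bij (q + r) (x m)) ∧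
    ((∀ m, Q.Bij q (x m)) → ∀ n : ι → ℤ, ∃ r ∈ H.Nv Q.PI False, ∀ m, Q.Bij (q + r) (x m) ∧
      Q.sf _ (Q.hs q (x m)) (Q.hs (q + r) (x m)) = 2 * n m) := by
  have S := fun m => H.sp.I (x m) (e.1 m).1
  obtain ⟨a1, a2⟩ := H.mass hq 1 S (N := H.Nv Q.PI False) (fun r hr => hr.1)
    (Ψ := fun m => {ψ | Q.X0 _ 0 (Q.X0 _ 0 ψ) = -ψ}) (fun m ψ h => by simpa using h)
    (fun m ψ h δ hδ => by
      obtain ⟨T, c, K, b1, b2⟩ := H.im ι x (fun n => ⟨(e.1 n).1, hs n⟩) e.2.1 m ψ h δ hδ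
      have b3 : ∀ m, Q.hs (∑ j ∈ T, c j • Q.f (.sw j)) (x m) = K m := fun m =>
        H.hs_eq (sum_mem fun j _ => Subalgebra.smul_mem _ (f_mem _) _) (by
          rw [H.gr_sum _ fun j => f_mem _, Finset.sum_apply]
          simp only [H.gr_f, Pi.smul_apply]
          rw [(HasFDerivAt.sum fun j _ => ((H.sm.sm (.sw j) _).differentiable (by simp)
            0).hasFDerivAt.const_smul (c j)).fderiv]
          exact b1 m)
      exact ⟨_, sum_mem (t := T) fun j _ => Submodule.smul_mem _ (c j) (H.sw_nv j), by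
        simpa only [b3, one_smul] using b2⟩)
    fun m ε hε R => H.sg.I _ (e.1 m).1 ε hε R
  refine ⟨fun h => a1 fun m z b1 b2 => ?_, a2⟩
  have hb := H.op.bij _ (.inr (hs m))
  obtain ⟨c1, c2, c3⟩ := H.ker_z hq (e.1 m).2 hb b1
  have c4 := (b2 (Q.X0 _ 0 (Q.X0 _ 0 (Q.i _ (Q.j1 _ z)))) (by simp [(S m).cube])).1
  rw [(S m).skew, neg_eq_zero, inner_self_eq_zero, ← (S m).i, ← (S m).j1 z.1 z.2] at c4
  exact Prod.ext (H.tan_zero (S m) one_ne_zero hb (h m) c2 c3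
    (congrArg Prod.fst (H.op.injZ (z' := 0) (by simpa using c4)))) c1

theorem massS (hq : q ∈ Q.Rl) (e : Q.Cls q (Q.PS · 0) x) :
    ((∀ m, Q.On True q nil (x m) 0) →
      ∃ r ∈ H.Nv Q.PI True ⊓ H.Nv Q.Fixv False, ∀ m, Q.Bij (q + r) (x m)) ∧
    ((∀ m, Q.Bij q (x m)) → ∀ n : ι → ℤ, ∃ r ∈ H.Nv Q.PI True ⊓ H.Nv Q.Fixv False,
      ∀ m, Q.Bij (q + r) (x m) ∧ Q.sf _ (Q.hs q (x m)) (Q.hs (q + r) (x m)) = 2 * n m) := by
  classical
  choose ξ hξ using fun m => (e.1 m).1.2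
  have S := fun m => H.sp.S (x m) (ξ m) (e.1 m).1.1 (hξ m)
  have hJ : ∀ m j, ((1 / 2 : ℝ) • Q.X0 _ (ξ m)) (Q.j0 _ (Q.τ (.re j) (x m) 0, 0)) =
      Q.j0 _ (Q.τ (.im j) (x m) 0, 0) ∧ ((1 / 2 : ℝ) • Q.X0 _ (ξ m))
        (Q.j0 _ (Q.τ (.im j) (x m) 0, 0)) = -Q.j0 _ (Q.τ (.re j) (x m) 0, 0) := fun m j => by
    simp only [smul_apply, ← (S m).j0, H.s_X (S m) j, map_zero, ← map_smul, ← map_neg, Prod.smul_mk,
      smul_smul, smul_zero, Prod.neg_mk, neg_zero]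
    norm_num
  obtain ⟨a1, a2⟩ := H.mass hq (1 / 2) S (N := H.Nv Q.PI True ⊓ H.Nv Q.Fixv False)
    (fun r hr => hr.1.1) (Ψ := fun m => range fun j => Q.j0 _ (Q.τ (.re j) (x m) 0, 0))
    (by rintro m _ ⟨j, rfl⟩; rw [(hJ m j).1, (hJ m j).2])
    (by
      rintro m _ ⟨j, rfl⟩ δ hδ
      have b1 : ∀ m', m' ≠ m → ∃ k, Q.f (.sw k) (x m') 0 ≠ Q.f (.sw k) (x m) 0 := fun m' h => by
        by_contra hn
        push Not at hn
        refine h (e.2.1 _ _ (H.dr.sep _ _ (e.1 m').1.1 fun k hk => ?_))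
        rcases k with k | k | k | k
        exacts [(hk k rfl).elim, hn k, by simp [H.s_fix (e.1 _).1.2], by simp [H.s_fix (e.1 _).1.2]]
      choose k hk using b1
      let χ : Q.Fd := (1 / 2 : ℝ) • ∏ a : {m' // m' ≠ m},
        (Q.f (.sw (k a a.2)) (x m) 0 - Q.f (.sw (k a a.2)) (x a) 0)⁻¹ •
          (Q.f (.sw (k a a.2)) - algebraMap ℝ _ (Q.f (.sw (k a a.2)) (x a) 0))
      have b2 : χ ∈ Q.Rl := Subalgebra.smul_mem _ (prod_mem fun m' _ => Subalgebra.smul_mem _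
        (sub_mem (sw_mem _) (algebraMap_mem _ _)) _) _
      have b3 : χ (x m) 0 = 1 / 2 := by
        simp only [χ, Pi.smul_apply, Finset.prod_apply, smul_eq_mul]
        rw [Finset.prod_eq_one, mul_one]
        exact fun a _ => inv_mul_cancel₀ (sub_ne_zero.2 (hk a.1 a.2).symm)
      have b4 : ∀ m', m' ≠ m → χ (x m') 0 = 0 := fun m' h => by
        simp only [χ, Pi.smul_apply, Finset.prod_apply, smul_eq_mul]
        rw [Finset.prod_eq_zero (Finset.mem_univ ⟨m', h⟩) (by simp), mul_zero]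
      have b5 : ∀ o v, fderiv ℝ (Q.gr (Q.hr j j) o) v = _ := fun o v => by
        rw [hr, H.dgr_add (mul_mem (f_mem _) (f_mem _)) (mul_mem (f_mem _) (f_mem _)),
          H.dgr_mul (f_mem _) (f_mem _), H.dgr_mul (f_mem _) (f_mem _), H.gr_f, H.gr_f]
      have b6 : ∀ o v, Q.Fixv o v → fderiv ℝ (Q.gr (Q.hr j j * χ) o) v =
          χ o v • fderiv ℝ (Q.gr (Q.hr j j) o) v := fun o v h => by
        rw [H.dgr_mul (Rl_le (hr_mem _ _)) (Rl_le b2)]
        simp [(H.hr_nv j j).2 o v h]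
      have b7 : ∀ m', Q.hs (Q.hr j j * χ) (x m') = (2 * χ (x m') 0) •
          rk ((1 / 2 : ℝ) • Q.X0 _ (ξ m')) (Q.j0 _ (Q.τ (.re j) (x m') 0, 0)) := fun m' =>
        H.hs_eq (Rl_le (mul_mem (hr_mem _ _) b2)) fun z => by
          rw [b6 _ _ (e.1 m').1.2, b5, smul_apply, rk_apply, (hJ m' j).1, ← BB_apply, ← BB_apply,
            H.op.pair', H.op.pair']
          simp only [← map_smul, ← map_add, H.s_fix (e.1 m').1.2, zero_smul, zero_add, smul_apply,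
            add_apply, ContinuousLinearMap.smulRight_apply, Prod.smul_mk, Prod.mk_add_mk, smul_zero,
            add_zero]
          congr 2
          module
      have b8 := H.mul_nv (t := False) (H.hr_nv j j) b2 False.elim
      refine ⟨_, ⟨⟨b8.1, fun o v h => ⟨(b8.2 o v h.fix).1, (b8.2 o v h.fix).2.1, fun _ => ?_⟩⟩, b8⟩,
        by simp [b7, b3, hδ.le], fun m' h => by simp [b7, b4 m' h, hδ.le]⟩
      simp [b6 o v h.fix, b5, H.sm.van (.re j) o v (by simp) h, H.sm.van (.im j) o v (by simp) h])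
    fun m ε hε R => (H.sg.S _ _ (e.1 m).1.1 (hξ m) ε hε R).elim fun j h => ⟨_, ⟨j, rfl⟩, h⟩
  refine ⟨fun h => a1 fun m z b1 b2 => ?_, a2⟩
  have hb := H.op.bij _ (.inl (e.1 m).1.1)
  obtain ⟨c1, c2, c3⟩ := H.ker_z hq (e.1 m).2 hb b1
  have c4 : pk0 (Q.XC _ (ξ m)) 2 z.1 = 0 := H.tan_zero (S m) two_ne_zero hb (h m)
    (by rw [← pk0_comm 2 (H.d_X (S m) (H.sm_F (Rl_le hq))
      fun η _ h => H.eqv_F h (H.gr.ph _ η) hq), c2, map_zero])
    (by rw [← pk0_comm 2 (H.σ_X (S m)), c3, map_zero]) (X_pk0 two_ne_zero (H.cubeC (S m)) _)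
  obtain ⟨η, hη⟩ := H.dr.der _ z.1 (H.ker_smo (Rl_le hq) b1) (e.1 m).1.1 fun k hk => by
    rcases k with k | k | k | k
    · exact (hk k rfl).elim
    · rw [pk0_apply] at c4
      rw [eq_neg_of_add_eq_zero_left c4, map_neg, map_smul, ← H.gr_f, H.gr_X (S m) (sw_mem k)]
      simp
    · exact (H.op.pair' _ _ _).symm.trans (b2 _ ⟨k, rfl⟩).1
    · rw [← H.op.pair', BB_apply, ← (hJ m k).1]
      exact (b2 _ ⟨k, rfl⟩).2
  rw [hη] at c3
  exact Prod.ext (by rw [hη, (injective_iff_map_eq_zero _).1 hb.1 η c3, map_zero]; rfl) c1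

/-- **CRIT for gradient models.** -/
theorem main (R : Bc → ℝ) : ∃ q₁ ∈ Q.Rl, ∃ (ι₁ : Type) (_ : Fintype ι₁) (x₁ : ι₁ → Q.X),
    (∀ n, Q.Sol q₁ (x₁ n) ∧ Q.Bij q₁ (x₁ n)) ∧ ∀ n₁ : ι₁ → ℤ,
    ∃ q₂ ∈ Q.Rl, ∃ (ι₂ : Type) (_ : Fintype ι₂) (x₂ : ι₂ → Q.X),
    (∀ n, Q.Sol q₂ (x₂ n) ∧ Q.Bij q₂ (x₂ n)) ∧ ∀ n₂ : ι₂ → ℤ,
    ∃ q₃ ∈ Q.Rl, ∃ (ι₃ : Type) (_ : Fintype ι₃) (x₃ : ι₃ → Q.X),
      Q.Cls q₃ (Q.PI · 0) x₁ ∧ Q.Cls q₃ (Q.PS · 0) x₂ ∧ Q.Cls q₃ (Q.PF · 0) x₃ ∧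
      (∀ x, Q.Sol q₃ x → Q.ND q₃ x) ∧ (∀ n, Q.SI (x₁ n) ∧ Q.Bij q₃ (x₁ n) ∧
        Q.sf _ (Q.hs q₁ (x₁ n)) (Q.hs q₃ (x₁ n)) = 2 * n₁ n) ∧
      (∀ n, Q.Bij q₃ (x₂ n) ∧ Q.sf _ (Q.hs q₂ (x₂ n)) (Q.hs q₃ (x₂ n)) = 2 * n₂ n ∧
        q₃ (x₂ n) 0 = q₂ (x₂ n) 0) ∧ (∀ o v, Q.PI o v → Q.gr q₃ o v = Q.gr q₁ o v) ∧
      ∃ q₀, Q.Lc R q₀ ∧ ∀ o v, Q.PI o v → q₃ o v = q₀ o v := by
  obtain ⟨q₀, h0, hL, a1, ι₁, i₁, x₁, c1⟩ := H.stageI R
  have s1 := fun n => a1 _ (c1.1 n).1 (c1.1 n).2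
  obtain ⟨r₁, b1, d1⟩ := (H.massI h0 c1 fun n => (s1 n).1).1 fun n => (s1 n).2
  have h1 := add_mem h0 b1.1
  have c1 := H.cls_nv h0 b1 (fun _ => id) c1
  refine ⟨_, h1, ι₁, i₁, x₁, fun n => ⟨(c1.1 n).2, d1 n⟩, fun n₁ => ?_⟩
  obtain ⟨r₂, b2, d2⟩ := (H.massI h1 c1 fun n => (s1 n).1).2 d1 n₁
  have h2 := add_mem h1 b2.1
  have c1 := H.cls_nv h1 b2 (fun _ => id) c1
  have nd : ∀ q ∈ Q.Rl, Q.Cls q (Q.PI · 0) x₁ → (∀ n, Q.Bij q (x₁ n)) → ∀ y, Q.PI y 0 → Q.Sol q y →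
      Q.SI y ∧ Q.On False q nil y 0 := fun q hq c d y e1 e2 => by
    obtain ⟨n, hn⟩ := c.2.2 y e1 e2
    exact ⟨H.gr.SI _ _ (H.gr.symm _ _ hn) (s1 n).1, H.on_cls hq c
      (fun n => H.on_of_bij hq (c.1 n).2 (H.op.bij _ (.inr (s1 n).1)) (d n)) e1 e2⟩
  obtain ⟨r₃, b3, a3, ι₂, i₂, x₂, c2⟩ := H.stageS h2 (nd _ h2 c1 fun n => (d2 n).1)
  have h3 := add_mem h2 b3.1
  obtain ⟨r₄, b4, d4⟩ := (H.massS h3 c2).1 fun n => a3 _ (c2.1 n).1 (c2.1 n).2
  have h4 := add_mem h3 b4.1.1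
  have c2 := H.cls_nv h3 b4.2 (fun _ h => h.2) c2
  refine ⟨_, h4, ι₂, i₂, x₂, fun n => ⟨(c2.1 n).2, d4 n⟩, fun n₂ => ?_⟩
  obtain ⟨r₅, b5, d5⟩ := (H.massS h4 c2).2 d4 n₂
  have h5 := add_mem h4 b5.1.1
  have c2 := H.cls_nv h4 b5.2 (fun _ h => h.2) c2
  have c1 := H.cls_nv h4 b5.1 (fun _ => id) (H.cls_nv h3 b4.1 (fun _ => id)
    (H.cls_nv h2 b3 (fun _ => id) c1))
  have e5 : ∀ n, Q.hs (q₀ + r₁ + r₂ + r₃ + r₄ + r₅) (x₁ n) = Q.hs (q₀ + r₁ + r₂) (x₁ n) := fun n => by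
    rw [H.hs_nv h4 b5.1 (c1.1 n).1, H.hs_nv h3 b4.1 (c1.1 n).1, H.hs_nv h2 b3 (c1.1 n).1]
  have nd5 : ∀ y, Q.Fixv y 0 → Q.Sol (q₀ + r₁ + r₂ + r₃ + r₄ + r₅) y →
      Bijective (Q.σ y ∘L Q.d y 0) ∧ Q.On False (q₀ + r₁ + r₂ + r₃ + r₄ + r₅) nil y 0 :=
    fun y e1 e2 => by
      by_cases h : Q.J y 0 = 0
      · have := nd _ h5 c1 (fun n => by rw [Bij, e5]; exact (d2 n).1) y h e2
        exact ⟨H.op.bij _ (.inr this.1), this.2⟩
      · exact ⟨H.op.bij _ (.inl h), H.on_cls h5 c2 (fun n => H.on_of_bij h5 (c2.1 n).2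
          (H.op.bij _ (.inl (c2.1 n).1.1)) (d5 n).1) ⟨h, e1⟩ e2⟩
  obtain ⟨r₆, b6, a6, ι₃, i₃, x₃, c3⟩ := H.stageF h5 nd5
  refine ⟨_, add_mem h5 b6.1, ι₃, i₃, x₃, H.cls_nv h5 b6 (fun _ => PI.fix) c1,
    H.cls_nv h5 b6 (fun _ h => h.2) c2, c3, fun y e u hu => ?_, fun n => ?_, fun n => ?_,
    fun o v h => ?_, q₀, hL, fun o v h => ?_⟩
  · by_cases h : Q.Fixv y 0
    · exact H.on_nv h5 b6 h (nd5 y h ((H.F_nv h5 b6 h).2.1.symm.trans e)).2 u hu False.elim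
        fun e => e.elim
    · exact a6 y h e u hu False.elim fun e => e.elim
  · rw [Bij, H.hs_nv h5 b6 (c1.1 n).1.fix, e5]
    exact ⟨(s1 n).1, d2 n⟩
  · rw [Bij, H.hs_nv h5 b6 (c2.1 n).1.2, (H.F_nv h5 b6 (c2.1 n).1.2).2.2,
      (H.F_nv h4 b5.2 (c2.1 n).1.2).2.2]
    exact ⟨(d5 n).1, (d5 n).2, rfl⟩
  · rw [(H.F_nv h5 b6 h.fix).1, (H.F_nv h4 b5.1 h).1, (H.F_nv h3 b4.1 h).1, (H.F_nv h2 b3 h).1,
      (H.F_nv h1 b2 h).1]
  · rw [(H.F_nv h5 b6 h.fix).2.2, (H.F_nv h4 b5.1 h).2.2, (H.F_nv h3 b4.1 h).2.2,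
      (H.F_nv h2 b3 h).2.2, (H.F_nv h1 b2 h).2.2, (H.F_nv h0 b1 h).2.2]

end Ax

end Crest.Agent.X212.Crt72.GM
end
end

-- ▼ part X212/Reg44/Fn
section

/-! Row 212, CRIT-REG (helper44): functionals and gradients on the Banach models. -/

set_option autoImplicit false
set_option linter.unusedSectionVars false
set_option maxHeartbeats 400000
noncomputable section
open scoped Manifold ContDiff Topology InnerProductSpace
open MeasureTheory Set Function Filter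

namespace Crest.Agent.X212.Reg44
open An An.Pre Nd18 Crt72 Sob92
open Lin97 (Hy)

theorem fd_of_int {H Z : Type*} [NormedAddCommGroup H] [NormedSpace ℝ H] [NormedAddCommGroup Z]
    [NormedSpace ℝ Z] [CompleteSpace Z] {N : H → Z} {A : H → H →L[ℝ] Z} (hA : Continuous A)
    (h : ∀ σ τ, N (σ + τ) - N σ = ∫ t in (0 : ℝ)..1, A (σ + t • τ) τ) (σ : H) :
    HasFDerivAt N (A σ) σ := by
  refine hasFDerivAt_iff_isLittleO_nhds_zero.2 (Asymptotics.isLittleO_iff.2 fun c hc => ?_)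
  obtain ⟨r, hr, h1⟩ := Metric.continuous_iff.1 hA σ c hc
  filter_upwards [Metric.ball_mem_nhds (0 : H) hr] with τ hτ
  have hi : IntervalIntegrable (fun t : ℝ => A (σ + t • τ) τ) volume 0 1 :=
    Continuous.intervalIntegrable (by fun_prop) _ _
  have h2 : N (σ + τ) - N σ - A σ τ = ∫ t in (0 : ℝ)..1, (A (σ + t • τ) τ - A σ τ) := by
    rw [h, intervalIntegral.integral_sub hi intervalIntegrable_const]; simp
  rw [h2]
  refine (intervalIntegral.norm_integral_le_of_norm_le_const (C := c * ‖τ‖) fun t ht => ?_).trans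
    (by simp)
  rw [uIoc_of_le zero_le_one] at ht
  rw [← sub_apply]
  refine ContinuousLinearMap.le_of_opNorm_le _ ?_ _
  rw [← dist_eq_norm]
  refine (h1 _ ?_).le
  rw [dist_self_add_left, norm_smul, Real.norm_of_nonneg ht.1.le]
  exact (mul_le_of_le_one_left (norm_nonneg _) ht.2).trans_lt (mem_ball_zero_iff.1 hτ)

theorem cont_int {H : Type*} [NormedAddCommGroup H] [NormedSpace ℝ H] {A : H → H →L[ℝ] ℝ}
    (hA : Continuous A) :
    Continuous fun p : H × H => ∫ t in (0 : ℝ)..1, A (p.1 + t • p.2) p.2 :=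
  intervalIntegral.continuous_parametric_intervalIntegral_of_continuous' (μ := volume)
    (f := fun (p : H × H) (t : ℝ) => A (p.1 + t • p.2) p.2)
    (by unfold Function.uncurry; fun_prop) 0 1

theorem cont_int0 {H : Type*} [NormedAddCommGroup H] [NormedSpace ℝ H] {A : H → H →L[ℝ] ℝ}
    (hA : Continuous A) (c : ℝ) : Continuous fun v : H => c + ∫ t in (0 : ℝ)..1, A (0 + t • v) v :=
  continuous_const.add ((cont_int hA).comp (continuous_const.prodMk continuous_id) :)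

variable {E3 : Type} [NormedAddCommGroup E3] [NormedSpace ℝ E3] [FiniteDimensional ℝ E3]
  [MeasurableSpace E3] [BorelSpace E3]
  {H3 : Type} [TopologicalSpace H3] {I3 : ModelWithCorners ℝ E3 H3} [I3.Boundaryless]
  {Y : Type} [TopologicalSpace Y] [ChartedSpace H3 Y] [IsManifold I3 ∞ Y] [T2Space Y]
  [MeasurableSpace Y] [BorelSpace Y] [SecondCountableTopology Y] [CompactSpace Y]
  {κ : Type} [Fintype κ] {lam : Type} [Fintype lam]
  {D : YD I3 Y κ lam} {β : YC Y κ lam} {u : YF Y κ lam} {j l : ℕ}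

/-- a variation at `β` as a variation at `cf y` -/
def tr (y z : SP D β) : SP D (cf y) := z

theorem cf_cf (y z : SP D β) : cf (tr y z) = cf (y + z) := by
  have h1 : β.m.addC (β.m.addC β.W fun x => up κ _ (y.1.1 x)) (fun x => up κ _ (z.1.1 x)) =
      β.m.addC β.W fun x => up κ _ ((y + z).1.1 x) := funext₂ fun a x => by
    simp only [Md.addC, Prod.fst_add, Submodule.coe_add, Pi.add_apply, map_add, PiLp.add_apply,
      add_assoc]
  have h2 : (fun x => β.Φ x + y.2.1 x + z.2.1 x) = fun x => β.Φ x + (y + z).2.1 x :=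
    funext fun x => by simp only [Prod.snd_add, Submodule.coe_add, Pi.add_apply, add_assoc]
  exact congrArg₂ (fun W Φ => (⟨β.m, W, Φ, β.z⟩ : YC Y κ lam)) h1 h2

variable (D u) in
/-- the first variation formula -/
def Gr : Prop := ∀ β, D.Adm β → ∀ y : SP D β,
  HasDerivAt (fun ε : ℝ => u.f (cf (ε • y))) (ipg D u β y.1.1 y.2.1) 0

theorem der_line (h : Hy D β) (hg : Gr D u) (y z : SP D β) (t : ℝ) :
    HasDerivAt (fun s : ℝ => u.f (cf (y + s • z))) (ipg D u (cf (y + t • z)) z.1.1 z.2.1) t := by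
  have h1 := hg _ (h.adm_cf (y + t • z)) (tr (y + t • z) z)
  have h2 := HasDerivAt.comp_sub_const t t (by rw [sub_self]; exact h1)
  refine h2.congr_of_eventuallyEq (.of_forall fun s => ?_)
  have : cf ((s - t) • tr (y + t • z) z) = cf (y + t • z + (s - t) • z) :=
    cf_cf (y + t • z) ((s - t) • z)
  simp only [this]
  rw [add_assoc, ← add_smul, add_sub_cancel]

theorem integ (h : HY D) {V : Type} [NormedAddCommGroup V] [InnerProductSpace ℝ V] [CompleteSpace V]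
    {p : Y → V →L[ℝ] V} (hj : 4 ≤ j) (hl : 4 ≤ l) (a : D.F.H j p) (b : D.F.H l p) :
    Integrable (fun x => ⟪D.F.val _ _ a x, D.F.val _ _ b x⟫_ℝ) D.F.μ :=
  D.F.integrable_inner (continuous_val (Cgr76.hS h) hj a) (HasCompactSupport.of_compactSpace _)
    (continuous_val (Cgr76.hS h) hl b)

theorem ipg_eq (h : Hy D β) (hj : 4 ≤ j) (hl : 4 ≤ l) {T : CC D β j → CC D β l}
    (hT : RpT D β u j l T) (y z : SP D β) :
    ipg D u (cf y) z.1.1 z.2.1 = bb D β l j (T (pt D β j y)) (pt D β j z) := by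
  rw [Cgr76.bb_eq h.toHY hl hj, ← integral_add (integ h.toHY hl hj _ _) (integ h.toHY hl hj _ _),
    Cgr76.val_pt1 h.toHY hj, Cgr76.val_pt2 h.toHY hj]
  refine integral_congr_ae (.of_forall fun x => ?_)
  simp only [(hT.2 y x).1, (hT.2 y x).2]
  rw [Lin97.prj_pc.2, h.prj_pv.2, z.1.2.2.2 x, z.2.2.2.2 x]
  rfl

theorem ftc (h : Hy D β) (hg : Gr D u) (hj : 4 ≤ j) (hl : 4 ≤ l) {T : CC D β j → CC D β l}
    (hT : RpT D β u j l T) (y z : SP D β) : u.f (cf (y + z)) - u.f (cf y) =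
      ∫ t in (0 : ℝ)..1, bb D β l j (T (pt D β j y + t • pt D β j z)) (pt D β j z) := by
  have hc := hT.1.continuous
  have := intervalIntegral.integral_eq_sub_of_hasDerivAt (a := 0) (b := 1)
    (f := fun s : ℝ => u.f (cf (y + s • z)))
    (f' := fun t => bb D β l j (T (pt D β j y + t • pt D β j z)) (pt D β j z))
    (fun t _ => by
      have := der_line h hg y z t
      rwa [ipg_eq h hj hl hT, map_add, map_smul] at this)
    (Continuous.intervalIntegrable (by fun_prop) _ _)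
  rw [this, one_smul, zero_smul, add_zero]

/-- **A functional with a represented gradient is represented.** -/
theorem rpf_of (h : Hy D β) (hg : Gr D u) (hj : 4 ≤ j) (hl : 4 ≤ l) {T : CC D β j → CC D β l}
    (hT : RpT D β u j l T) : ∃ f, Rpf D β u j f := by
  have hc := hT.1.continuous
  have hA : Continuous fun v => bb D β l j (T v) := by fun_prop
  refine ⟨_, cont_int0 hA (u.f β), fun y => ?_⟩
  have := ftc h hg hj hl hT 0 y
  rw [zero_add, cf_zero, map_zero] at this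
  simp only [← this, add_sub_cancel]

/-- **The gradient on the model.** -/
theorem Rpf.fd (h : Hy D β) (hg : Gr D u) (hj : 4 ≤ j) (hl : 4 ≤ l) {T : CC D β j → CC D β l}
    (hT : RpT D β u j l T) {f : CC D β j → ℝ} (hf : Rpf D β u j f) (v : CC D β j) :
    HasFDerivAt f (bb D β l j (T v)) v := by
  have hc := hT.1.continuous
  have hA : Continuous fun v => bb D β l j (T v) := by fun_prop
  have hf1 := hf.1
  refine fd_of_int hA (fun σ τ => ?_) v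
  have hd : DenseRange (Prod.map (pt D β j) (pt D β j)) := Lin97.dense_pt.prodMap Lin97.dense_pt
  have := hd.equalizer (g := fun p : CC D β j × CC D β j => f (p.1 + p.2) - f p.1) (by fun_prop)
    (cont_int hA) (funext fun p => by
      simp only [Function.comp, Prod.map_fst, Prod.map_snd]
      rw [← map_add, hf.2, hf.2, ftc h hg hj hl hT])
  exact congrFun this (σ, τ)

/-- representations are unique -/
theorem RpT.eq (h : HY D) (hl : 4 ≤ l) {T T' : CC D β j → CC D β l} (hT : RpT D β u j l T)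
    (hT' : RpT D β u j l T') : T = T' :=
  Lin97.dense_pt.equalizer hT.1.continuous hT'.1.continuous (funext fun y =>
    Cgr76.cc_ext h hl (fun x a => by simp only [Function.comp]; rw [(hT.2 y x).1, (hT'.2 y x).1])
      fun x => by simp only [Function.comp]; rw [(hT.2 y x).2, (hT'.2 y x).2])

theorem iC_pt (hl : l ≤ j) (y : SP D β) : iC D β j l (pt D β j y) = pt D β l y :=
  Prod.ext (incl_toH hl _) (incl_toH hl _)

theorem iC_iC {m : ℕ} (h1 : m ≤ l) (h2 : l ≤ j) (v : CC D β j) :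
    iC D β l m (iC D β j l v) = iC D β j m v :=
  Prod.ext (incl_incl h2 h1 _) (incl_incl h2 h1 _)

theorem RpT.post (h : HY D) {m : ℕ} (hm : 4 ≤ m) (hl : m ≤ l) {T : CC D β j → CC D β l}
    (hT : RpT D β u j l T) : RpT D β u j m fun v => iC D β l m (T v) :=
  ⟨(iC D β l m).contDiff.comp hT.1, fun y x =>
    ⟨(congrFun (val_incl (Cgr76.hS h) hm hl _) x).trans (hT.2 y x).1,
      (congrFun (val_incl (Cgr76.hS h) hm hl _) x).trans (hT.2 y x).2⟩⟩

theorem RpT.pre {m : ℕ} (hm : j ≤ m) {T : CC D β j → CC D β l}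
    (hT : RpT D β u j l T) : RpT D β u m l fun v => T (iC D β m j v) :=
  ⟨hT.1.comp (iC D β m j).contDiff, fun y x => by
    simp only [iC_pt hm]; exact hT.2 y x⟩

theorem cpt_iC (h : l < j) : IsCompactOperator (iC D β j l) := by
  have e : iC D β j l =
      ContinuousLinearMap.inl ℝ _ _ ∘L D.F.incl j l _ ∘L ContinuousLinearMap.fst ℝ _ _ +
      ContinuousLinearMap.inr ℝ _ _ ∘L D.F.incl j l _ ∘L ContinuousLinearMap.snd ℝ _ _ :=
    ContinuousLinearMap.ext fun v => by simp [iC]; rfl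
  rw [e]
  have h1 : IsCompactOperator (D.F.incl j l (pc D β)) := Cht98.rellich h
  have h2 : IsCompactOperator (D.F.incl j l (pv D β)) := Cht98.rellich h
  exact ((h1.comp_clm (ContinuousLinearMap.fst ℝ _ _)).clm_comp
    (ContinuousLinearMap.inl ℝ _ _)).add
      ((h2.comp_clm (ContinuousLinearMap.snd ℝ _ _)).clm_comp (ContinuousLinearMap.inr ℝ _ _))

end Crest.Agent.X212.Reg44
end
end

-- ▼ part X212/Reg44/Main

/-! Row 212, CRIT-REG (helper44): the axioms `AxSm` of the model on `Y`. -/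

set_option autoImplicit false
set_option linter.unusedSectionVars false
set_option maxHeartbeats 400000
noncomputable section
open scoped Manifold ContDiff Topology InnerProductSpace
open MeasureTheory Set Function Filter

namespace Crest.Agent.X212.Reg44
open An An.Pre Nd18 Crt72 Sob92 Dgr80
open Lin97 (Hy)
open Wrd81 (wd)
open Map77 (Cf Prj)

variable {E3 : Type} [NormedAddCommGroup E3] [NormedSpace ℝ E3] [FiniteDimensional ℝ E3]
  [MeasurableSpace E3] [BorelSpace E3]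
  {H3 : Type} [TopologicalSpace H3] {I3 : ModelWithCorners ℝ E3 H3} [I3.Boundaryless]
  {Y : Type} [TopologicalSpace Y] [ChartedSpace H3 Y] [IsManifold I3 ∞ Y] [T2Space Y]
  [MeasurableSpace Y] [BorelSpace Y] [SecondCountableTopology Y] [CompactSpace Y]
  {κ : Type} [Fintype κ] {lam : Type} [Fintype lam]
  {D : YD I3 Y κ lam} {β : YC Y κ lam} {u : YF Y κ lam} {j l k : ℕ}

/-! ### words on the zero spinor -/

section zero
variable {V U : Type} [NormedAddCommGroup V] [InnerProductSpace ℝ V] [CompleteSpace V]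
  [NormedAddCommGroup U] [InnerProductSpace ℝ U] [CompleteSpace U]
  {F : Fr I3 Y κ} {A : κ → Y → CL V V} (h : F.res A 0 = 0)
include h

theorem wd_zero : ∀ w : List (SL Y V), wd (sl F A) 0 w = 0
  | [] => rfl
  | .op T :: w => by
    change sl F A (.op T) (wd (sl F A) 0 w) = 0
    rw [wd_zero w]; funext x; simp [sl]
  | .G :: w => by
    change sl F A .G (wd (sl F A) 0 w) = 0
    rw [wd_zero w]; exact h

theorem slT_zero : ∀ t : SL Y V, slT F A t 0 = 0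
  | .op T => funext fun x => by simp [slT]
  | .G => h

theorem bk_zero : ∀ w : List (SL Y V), bk F A w 0 = 0
  | [] => rfl
  | t :: w => by rw [bk, slT_zero h, bk_zero w]

theorem gc_zero (r : CL U (CL V V)) (s : Y → V) : ∀ w : List (SL Y V), gc F A r s w 0 = 0
  | [] => rfl
  | .op T :: w => by rw [gc, slT_zero h, gc_zero r s w]
  | .G :: w => by
    funext x
    rw [gc, h, gc_zero r s w]
    refine PiLp.ext fun a => ?_
    simp [cur, tp, Wz78.nab]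

end zero

theorem sw_zero (h : Hy D β) (h0 : ∀ x, β.Φ x = 0) (T : Pk Y lam) (a b : List (YL Y)) :
    (YF.sw D.F T a b).f β = 0 ∧ (YF.sw D.F T a b).gA β = 0 ∧ (YF.sw D.F T a b).gP β = 0 := by
  have hr : D.F.res (cn β) 0 = 0 := Mp86.res_zero Mp86.bumps_of_compact
    ⟨h.sm_cn, fun a x => Cgr76.skw_cn h.toAdm a x⟩
  have hn : nP β = 0 := funext fun x => by simp [nP, h0]
  have hw : ∀ w, yw D.F β w = 0 := fun w => by rw [yw, hn, wd_zero hr]
  have hz : ∀ w, (fun z => pk β T z (yw D.F β w z)) = 0 := fun w => funext fun z => by simp [hw]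
  refine ⟨by simp [YF.sw, hw], funext fun y => ?_, funext fun y => ?_⟩
  · simp only [YF.sw, hz, ywA, gc_zero hr, Pi.zero_apply, add_zero]
  · simp only [YF.sw, hz, ywP, bk_zero hr, dn, Pi.zero_apply, smul_zero, inner_zero_right,
      mul_zero, zero_smul, sub_zero, add_zero]

theorem yf_zero (h : Hy D β) (h0 : ∀ x, β.Φ x = 0) {i : BB D} (hi : ∀ c, i ≠ .cy c) :
    (yf D i).f β = 0 ∧ (yf D i).gA β = 0 ∧ (yf D i).gP β = 0 := by
  cases i with
  | cy c => exact absurd rfl (hi c)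
  | sw p => exact sw_zero h h0 _ _ _
  | re d => exact sw_zero h h0 _ _ _
  | im d => exact sw_zero h h0 _ _ _

theorem van (h : Hy D β) (hj : 4 ≤ j) (hl : 4 ≤ l) {i : BB D} (hi : ∀ c, i ≠ .cy c)
    {T : CC D β j → CC D β l} (hT : RpT D β (yf D i) j l T) {f : CC D β j → ℝ}
    (hf : Rpf D β (yf D i) j f) {v : CC D β j} (hv : jv D β j v = 0) : f v = 0 ∧ T v = 0 := by
  have hS := Cgr76.hS h.toHY
  have h1 : ∀ y, Cgr76.sv D β v y = 0 := fun y => by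
    have e := Cgr76.val_jv2 h.toHY h.toAdm hj v y
    rw [hv, Prod.snd_zero, val_zero, Pi.zero_apply] at e
    have e2 := congrArg (fun L : En (Fin β.m.N) => L (Cgr76.sv D β v y))
      (Cgr76.mok h.toAdm).Jsq
    simp only [mul_apply_eq_comp, ← e, map_zero] at e2
    simpa using e2
  let φ : Sec I3 (pv D β) := -⟨β.Φ, Lin97.sec_mk h.sm_Φ h.pv_Φ⟩
  have h2 : v.2 = D.F.toH j _ φ := val_injective hS hj (funext fun y => by
    rw [val_toH hS hj]; exact eq_neg_of_add_eq_zero_right (h1 y))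
  obtain ⟨a, b⟩ := v
  obtain rfl : b = _ := h2
  have hc := hT.1.continuous
  have hc' := hf.1
  clear hv h1
  induction a using H_ind with
  | hP => exact (isClosed_eq (hc'.comp (continuous_id.prodMk continuous_const))
            continuous_const).inter
            (isClosed_eq (hc.comp (continuous_id.prodMk continuous_const)) continuous_const)
  | h α =>
    obtain ⟨z1, z2, z3⟩ := yf_zero (h.cf (α, φ)) (fun x => add_neg_cancel (β.Φ x)) hi
    change f (pt D β j (α, φ)) = 0 ∧ T (pt D β j (α, φ)) = 0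
    refine ⟨(hf.2 (α, φ)).trans z1, Cgr76.cc_ext h.toHY hl (fun x a => ?_) fun x => ?_⟩
    · rw [(hT.2 (α, φ) x).1, z2, Prod.fst_zero, val_zero]
      exact congrArg (fun v : Fm κ β.m.A => v a) (map_zero (pc D β x))
    · rw [(hT.2 (α, φ) x).2, z3, Prod.snd_zero, val_zero]
      exact map_zero (pv D β x)

/-! ### `L²` bounds -/

theorem prj_le {V : Type} [NormedAddCommGroup V] [InnerProductSpace ℝ V] {p : Y → V →L[ℝ] V}
    (h : Prj p) (x : Y) (v : V) : ‖p x v‖ ≤ ‖v‖ := by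
  have : ‖p x v‖ * ‖p x v‖ ≤ ‖v‖ * ‖p x v‖ := by
    rw [← real_inner_self_eq_norm_mul_norm, h.symm, h.idem]; exact real_inner_le_norm _ _
  rcases (norm_nonneg (p x v)).eq_or_lt with h0 | h0
  · rw [← h0]; positivity
  · exact le_of_mul_le_mul_right this h0

theorem l2_le (h : HY D) {V : Type} [NormedAddCommGroup V] [InnerProductSpace ℝ V]
    [CompleteSpace V] {p : Y → V →L[ℝ] V} (hk : 4 ≤ k) (a : D.F.H k p) {R : ℝ} {g : Y → ℝ}
    (hg : Mp86.Dom D.F R g) (hR : ∀ x, ‖D.F.val _ _ a x‖ ^ 2 ≤ R + g x) :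
    ⟪D.F.incl k 0 p a, D.F.incl k 0 p a⟫_ℝ ≤ (R + R / 2) * D.F.μ.real univ := by
  rw [Cgr76.inner_incl (Cgr76.hS h) hk hk]
  refine hg.integral_le (integ h hk hk a a) fun x => ?_
  rw [real_inner_self_eq_norm_sq]
  exact hR x

theorem bd_emb (h : Hy D β) (hk : 4 ≤ k) {T : CC D β j → CC D β k} (hT : RpT D β u j k T) {R : ℝ}
    {g : Y → ℝ} (h0 : 0 ≤ R) (hP : ∀ y, ‖u.gP β y‖ ^ 2 ≤ R * 1) (hg : Mp86.Dom D.F R g)
    (hA : ∀ y, ‖u.gA β y‖ ^ 2 ≤ R + g y) :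
    ‖D.F.incl k 0 _ (emb D β 2 k (T 0, 0))‖ ≤ √(5 * ((R + R / 2) * D.F.μ.real univ)) := by
  have e := fun x => hT.2 0 x
  rw [map_zero, (g_cf_zero u β).1, (g_cf_zero u β).2] at e
  have h1 := l2_le h.toHY hk (T 0).1 hg fun x => by
    rw [(e x).1]
    exact (pow_le_pow_left₀ (norm_nonneg _) (prj_le Lin97.prj_pc x _) 2).trans (hA x)
  have h2 := l2_le h.toHY hk (T 0).2 (.zero h0) fun x => by
    rw [(e x).2]
    exact (pow_le_pow_left₀ (norm_nonneg _) (prj_le h.prj_pv x _) 2).trans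
      ((hP x).trans_eq (by ring))
  rw [norm_eq_sqrt_real_inner, Lin97.incl_emb k.zero_le, Lin97.inner_emb two_ne_zero]
  refine Real.sqrt_le_sqrt ?_
  rw [map_zero, inner_zero_left, mul_zero, add_zero]
  change 2 ^ 2 * ⟪D.F.incl k 0 _ (T 0).1, D.F.incl k 0 _ (T 0).1⟫_ℝ +
    ⟪D.F.incl k 0 _ (T 0).2, D.F.incl k 0 _ (T 0).2⟫_ℝ ≤ _
  linarith

/-! ### regularity -/

/-- **Bootstrap**: the right hand side gains a derivative on every level. -/
theorem boot (h : Hy D β) (hO : OpY D β) {z : CC D β (k + 1) × GG D β (k + 1)}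
    {e : CC D β k × GG D β k}
    (he : D.F.lift 1 0 _ _ (lf D β) (D.F.incl (k + 1) 1 _ (emb D β (1 / 2) (k + 1) z)) =
      D.F.incl k 0 _ (emb D β 2 k e))
    (hr : ∀ m, k ≤ m → ∀ w : CC D β (m + 1), iC D β (m + 1) (k + 1) w = z.1 →
      ∃ r : CC D β (m + 1), (iC D β (m + 1) k r, 0) = e) :
    z.1 ∈ LinearMap.range (pt D β (k + 1)) := by
  obtain ⟨σ, B, C, hA, hc, ho, -⟩ := hO
  obtain ⟨C', hF⟩ := h.tame
  have hh : (1 / 2 : ℝ) ≠ 0 := by norm_num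
  rw [Lin97.lift_eq (rep_OpH hA 0).1 ho, ← incl_OpH hA k.zero_le] at he
  have he' := Ell97.incl_inj D.F k.zero_le _ he
  have hi : ∀ m, k ≤ m → ∀ w : XX D β (m + 1),
      D.F.incl (m + 1) (k + 1) _ w = emb D β (1 / 2) (k + 1) z →
      iC D β (m + 1) (k + 1) (Lin97.inv D β (1 / 2) (m + 1) w).1 = z.1 := fun m hm w hw => by
    rw [← Lin97.emb_inv hh w, Lin97.incl_emb (by omega)] at hw
    exact congrArg Prod.fst ((Lin97.emb_bij hh).1 hw)
  have all : ∀ m, k ≤ m → ∃ w : XX D β (m + 1),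
      D.F.incl (m + 1) (k + 1) _ w = emb D β (1 / 2) (k + 1) z := fun m hm => by
    induction m, hm using Nat.le_induction with
    | base => exact ⟨_, incl_self _⟩
    | succ m hm ih =>
      obtain ⟨w, hw⟩ := ih
      obtain ⟨r, hr'⟩ := hr m hm _ (hi m hm w hw)
      obtain ⟨y, hy, -⟩ := Ell97.reg_up hF hA hc.1 (j := m + 1) (by omega)
        (w := emb D β 2 (m + 1) (r, 0)) (he'.trans (by
          rw [← hr']
          exact ((Lin97.incl_emb (by omega) _).trans (by rw [map_zero])).symm))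
      exact ⟨y, hy⟩
  have all' : ∀ m, k + 1 ≤ m → ∃ w : CC D β m, iC D β m (k + 1) w = z.1 := fun m hm => by
    obtain ⟨m, rfl⟩ : ∃ n, m = n + 1 := ⟨m - 1, by omega⟩
    obtain ⟨w, hw⟩ := all m (by omega)
    exact ⟨_, hi m (by omega) w hw⟩
  obtain ⟨a, ha⟩ := Ell97.sec_of_all hF (x := z.1.1) fun m hm =>
    (all' m hm).elim fun w hw => ⟨w.1, congrArg Prod.fst hw⟩
  obtain ⟨b, hb⟩ := Ell97.sec_of_all hF (x := z.1.2) fun m hm =>
    (all' m hm).elim fun w hw => ⟨w.2, congrArg Prod.snd hw⟩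
  exact ⟨(a, b), Prod.ext ha hb⟩

theorem mT_spec {i : BB D} (hs : Sm1 D i) (hβ : D.Adm β) (hk : 7 ≤ k) :
    RpT D β (yf D i) (k + 1) (k + 1) (mT D β (yf D i) (k + 1) (k + 1)) :=
  Classical.epsilon_spec (hs.T β hβ k hk)

theorem mf_spec {i : BB D} (hs : Sm1 D i) (hβ : D.Adm β) (hk : 7 ≤ k) :
    Rpf D β (yf D i) (k + 1) (mf D β (yf D i) (k + 1)) :=
  Classical.epsilon_spec (hs.f β hβ k hk)

/-- the gradients on different levels are compatible -/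
theorem lev (h : HY D) {m : ℕ} (hk : 4 ≤ k) (hm : k ≤ m) {T : CC D β (k + 1) → CC D β (k + 1)}
    {T' : CC D β (m + 1) → CC D β (m + 1)} (hT : RpT D β u (k + 1) (k + 1) T)
    (hT' : RpT D β u (m + 1) (m + 1) T') (w : CC D β (m + 1)) :
    iC D β (k + 1) k (T 0) = iC D β (m + 1) k (T' 0) ∧
      fderiv ℝ (fun v => iC D β (k + 1) k (T v)) 0 (iC D β (m + 1) (k + 1) w) =
        iC D β (m + 1) k (fderiv ℝ T' 0 w) := by
  have h1 := RpT.post h hk k.le_succ hT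
  have e := RpT.eq h hk (RpT.pre (m := m + 1) (by omega) h1) (RpT.post h hk (by omega) hT')
  refine ⟨by simpa using congrFun e 0, ?_⟩
  have d1 : HasFDerivAt (fun v => iC D β (k + 1) k (T v)) _ (iC D β (m + 1) (k + 1) 0) :=
    (h1.1.differentiable (by simp) _).hasFDerivAt
  have d2 := d1.comp 0 (iC D β (m + 1) (k + 1)).hasFDerivAt
  have d3 := (iC D β (m + 1) k).hasFDerivAt.comp 0 (hT'.1.differentiable (by simp) 0).hasFDerivAt
  rw [map_zero] at d2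
  exact DFunLike.congr_fun (d2.unique (d3.congr_of_eventuallyEq (.of_eq e))) w

theorem cpt_fd {T : CC D β (k + 1) → CC D β (k + 1)} (hT : ContDiff ℝ ∞ T) :
    IsCompactOperator (fderiv ℝ (fun v => iC D β (k + 1) k (T v)) 0) := by
  have d : HasFDerivAt (fun v => iC D β (k + 1) k (T v)) _ 0 :=
    (iC D β (k + 1) k).hasFDerivAt.comp 0 (hT.differentiable (by simp) 0).hasFDerivAt
  rw [d.fderiv]
  exact (cpt_iC k.lt_succ_self).comp_clm (fderiv ℝ T 0)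

theorem reg0 (h : Hy D β) (hO : OpY D β) (hs : ∀ i, Sm1 D i) (hk : 7 ≤ k)
    {z : CC D β (k + 1) × GG D β (k + 1)} {e : CC D β k × GG D β k}
    (he : D.F.lift 1 0 _ _ (lf D β) (D.F.incl (k + 1) 1 _ (emb D β (1 / 2) (k + 1) z)) =
      D.F.incl k 0 _ (emb D β 2 k e)) (S : Finset (BB D)) (c c' : BB D → ℝ)
    (hz : e + (∑ i ∈ S, (c i • fderiv ℝ (fun v => iC D β (k + 1) k
      (mT D β (yf D i) (k + 1) (k + 1) v)) 0 z.1 +
        c' i • iC D β (k + 1) k (mT D β (yf D i) (k + 1) (k + 1) 0)), 0) = 0) :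
    z.1 ∈ LinearMap.range (pt D β (k + 1)) := by
  refine boot h hO he fun m hm w hw => ?_
  refine ⟨-∑ i ∈ S, (c i • fderiv ℝ (mT D β (yf D i) (m + 1) (m + 1)) 0 w +
    c' i • mT D β (yf D i) (m + 1) (m + 1) 0), ?_⟩
  rw [eq_neg_of_add_eq_zero_left hz, map_neg, map_sum]
  refine Prod.ext (congrArg Neg.neg (Finset.sum_congr rfl fun i _ => ?_)) neg_zero.symm
  obtain ⟨e1, e2⟩ := lev h.toHY (by omega) hm (mT_spec (hs i) h.toAdm hk)
    (mT_spec (hs i) h.toAdm (hk.trans hm)) w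
  rw [map_add, map_smul, map_smul, ← e1, ← e2, hw]

/-- **CRIT-REG** from the linear theory. -/
theorem axSm (h : HY D) (ho : Op3 D) (hs : ∀ i, Sm1 D i) (hk : 7 ≤ k) (act : ActT D k)
    (sf : SfT D) (hL : (gm D k act sf).AxOp) : (gm D k act sf).AxSm := by
  have h4 : 4 ≤ k := by omega
  have hτ : ∀ i (o : XY D), RpT D o.1 (yf D i) (k + 1) k ((gm D k act sf).τ i o) := fun i o =>
    RpT.post h h4 k.le_succ (mT_spec (hs i) o.2 hk)
  refine ⟨fun i o => (hτ i o).1, fun i o v => ?_, fun i o => ?_, fun i => (hs i).hs k hk act sf,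
    fun i => ?_, fun i => ?_, fun i o v hi hv => ?_, fun o S c c' z hz => ?_⟩
  · exact Rpf.fd ⟨h, o.2⟩ (hs i).grad (by omega) h4 (hτ i o) (mf_spec (hs i) o.2 hk) v
  · exact cpt_fd (mT_spec (hs i) o.2 hk).1
  · obtain ⟨R, hR⟩ := (hs i).bd
    refine ⟨R, fun o => ?_⟩
    have e := (mf_spec (hs i) o.2 hk).2 0
    rw [map_zero, cf_zero] at e
    exact (congrArg abs e).trans_le (hR o.1 o.2).1
  · obtain ⟨R, hR⟩ := (hs (.cy i)).bd
    refine ⟨√(5 * ((R + R / 2) * D.F.μ.real univ)), fun o => ?_⟩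
    obtain ⟨h1, h2, g, h3, h5⟩ := hR o.1 o.2
    exact bd_emb ⟨h, o.2⟩ h4 (hτ _ o) ((abs_nonneg _).trans h1) h2.le h3 h5
  · exact van ⟨h, o.2⟩ (by omega) h4 hi (hτ i o) (mf_spec (hs i) o.2 hk) hv
  · exact reg0 ⟨h, o.2⟩ (ho o.1 o.2).1 hs hk (hL.L0 o z) S c c' hz

/-- **CRIT-REG** -/
theorem regStmt (D : YD I3 Y κ lam) : RegStmt D := fun h _ ho hs _ hk act sf =>
  axSm h ho hs hk act sf (Lin97.lin D h ho _ hk act sf)

end Crest.Agent.X212.Reg44
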